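import Mathlib.Analysis.Distribution.AEEqOfIntegralContDiff
import Mathlib.Analysis.Calculus.BumpFunction.Normed
import Mathlib.Analysis.Calculus.BumpFunction.InnerProduct
import Mathlib.Analysis.Calculus.ContDiff.Deriv
import Mathlib.MeasureTheory.Integral.IntervalIntegral.FundThmCalculus
import Mathlib.Analysis.Complex.RealDeriv

/-!
# The lemma of du Bois-Reymond on an interval
-/

open Set MeasureTheory
open scoped ContDiff

namespace Vale.Agent.P139L23

/-- a continuous function that is orthogonal to all test functions of integral zero is constant -/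
theorem const_of {H : ℝ → ℂ} {b : ℝ} (hb : 0 < b) (hH : Continuous H)
    (h : ∀ u : ℝ → ℝ, ContDiff ℝ ∞ u → (∃ a c : ℝ, 0 < a ∧ c < b ∧ ∀ t ∉ Icc a c, u t = 0) →
      ∫ t, u t = 0 → ∫ t, u t • H t = 0) : ∃ κ, ∀ t ∈ Icc 0 b, H t = κ := by
  let φ : ContDiffBump (b / 2) := ⟨b / 8, b / 4, by positivity, by linarith⟩
  have i : ∀ u : ℝ → ℝ, Continuous u → HasCompactSupport u → Integrable fun t => u t • H t :=
    fun u a c => (a.smul hH).integrable_of_hasCompactSupport c.smul_right
  refine ⟨∫ t, φ.normed volume t • H t, ?_⟩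
  set κ := ∫ t, φ.normed volume t • H t
  have ae := isOpen_Ioo.ae_eq_zero_of_integral_contDiff_smul_eq_zero (U := Ioo 0 b) (μ := volume)
    (f := fun t => H t - κ) ((hH.sub continuous_const).locallyIntegrable.locallyIntegrableOn _)
    fun ψ s c u => by
      have iψ := s.continuous.integrable_of_hasCompactSupport (μ := volume) c
      have K : IsCompact (tsupport ψ ∪ tsupport (φ.normed volume)) :=
        c.union φ.hasCompactSupport_normed
      have n : (tsupport ψ ∪ tsupport (φ.normed volume)).Nonempty := by
        refine .inr ?_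
        rw [φ.tsupport_normed_eq]
        exact Metric.nonempty_closedBall.2 φ.rOut_pos.le
      have v : tsupport ψ ∪ tsupport (φ.normed volume) ⊆ Ioo 0 b := by
        refine union_subset u ?_
        rw [φ.tsupport_normed_eq, Real.closedBall_eq_Icc]
        exact Icc_subset_Ioo (by simp only [φ]; linarith) (by simp only [φ]; linarith)
      have := h (fun t => ψ t - (∫ t, ψ t) * φ.normed volume t)
        (s.sub (contDiff_const.mul φ.contDiff_normed))
        ⟨_, _, (v (K.sInf_mem n)).1, (v (K.sSup_mem n)).2, fun t ht => by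
          have := mt (subset_Icc_csInf_csSup K.bddBelow K.bddAbove ·) ht
          rw [mem_union, not_or] at this
          rw [image_eq_zero_of_notMem_tsupport this.1, image_eq_zero_of_notMem_tsupport this.2,
            mul_zero, sub_zero]⟩
        (by rw [integral_sub iψ (φ.integrable_normed.const_mul _), integral_const_mul,
          φ.integral_normed, mul_one, sub_self])
      simp only [sub_smul, mul_smul] at this
      have j : Integrable fun t => (∫ t, ψ t) • φ.normed volume t • H t :=
        (i _ φ.continuous_normed φ.hasCompactSupport_normed).smul (∫ t, ψ t)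
      rw [integral_sub (i ψ s.continuous c) j, integral_smul] at this
      simp only [smul_sub]
      rw [integral_sub (i ψ s.continuous c) (iψ.smul_const κ), integral_smul_const]
      exact this
  have e : EqOn H (fun _ => κ) (Ioo 0 b) :=
    Measure.eqOn_open_of_ae_eq (μ := volume) ((ae_restrict_iff' measurableSet_Ioo).2
      (ae.mono fun x hx m => sub_eq_zero.1 (hx m))) isOpen_Ioo hH.continuousOn continuousOn_const
  have := e.closure hH continuous_const
  rwa [closure_Ioo hb.ne] at this

/-- **du Bois-Reymond** -/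
theorem dbr {F G : ℝ → ℂ} {b : ℝ} (hF : ContinuousOn F (Set.Icc 0 b))
    (hG : ContinuousOn G (Set.Icc 0 b))
    (h : ∀ η : ℝ → ℝ, ContDiff ℝ ∞ η → (∃ a c : ℝ, 0 < a ∧ c < b ∧ ∀ t ∉ Set.Icc a c, η t = 0) →
      ∫ t in Set.Icc 0 b, (((deriv η t : ℝ) : ℂ) * F t + (η t : ℂ) * G t) = 0) :
    ∀ t ∈ Set.Icc 0 b, HasDerivWithinAt F (G t) (Set.Icc 0 b) t := by
  rcases le_or_gt b 0 with hb | hb
  · exact fun t _ => HasFDerivWithinAt.of_subsingleton (subsingleton_Icc_of_ge hb)
  have pc : Continuous fun t : ℝ => max 0 (min t b) := by fun_prop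
  have pm : ∀ t : ℝ, max 0 (min t b) ∈ Icc 0 b := fun t =>
    ⟨le_max_left _ _, max_le hb.le (min_le_right _ _)⟩
  have pe : ∀ t ∈ Icc 0 b, max 0 (min t b) = t := fun t ht => by
    rw [min_eq_left ht.2, max_eq_right ht.1]
  have cF := hF.comp_continuous pc pm
  have cG := hG.comp_continuous pc pm
  set G' := G ∘ fun t : ℝ => max 0 (min t b)
  have dP : ∀ t, HasDerivAt (fun t => ∫ s in (0 : ℝ)..t, G' s) (G' t) t := fun t =>
    (cG.integral_hasStrictDerivAt 0 t).hasDerivAt
  set P := fun t => ∫ s in (0 : ℝ)..t, G' s
  have cP : Continuous P := continuous_iff_continuousAt.2 fun t => (dP t).continuousAt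
  obtain ⟨κ, hκ⟩ := const_of hb (cF.sub cP) fun u s ⟨a, c, a0, cb, z⟩ u0 => by
    have d : ∀ t, HasDerivAt (fun t => ∫ s in (0 : ℝ)..t, u s) (u t) t := fun t =>
      (s.continuous.integral_hasStrictDerivAt 0 t).hasDerivAt
    set η := fun t => ∫ s in (0 : ℝ)..t, u s
    have de : deriv η = u := funext fun t => (d t).deriv
    have cη : Continuous η := continuous_iff_continuousAt.2 fun t => (d t).continuousAt
    have ze : ∀ t ∉ Icc a c, η t = 0 := fun t ht => by
      rcases lt_or_ge t a with l | l
      · refine (intervalIntegral.integral_congr (g := fun _ => 0) fun x hx => z x fun m => ?_).trans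
          (by simp)
        exact (max_lt a0 l).not_ge (m.1.trans hx.2)
      · refine (intervalIntegral.integral_eq_integral_of_support_subset fun x hx => ?_).trans u0
        have m : x ∈ Icc a c := by_contra fun m => hx (z x m)
        exact ⟨a0.trans_le m.1, m.2.trans (le_of_not_ge fun k => ht ⟨l, k⟩)⟩
    have e := h η (contDiff_infty_iff_deriv.2 ⟨fun t => (d t).differentiableAt, de ▸ s⟩)
      ⟨a, c, a0, cb, ze⟩
    have cu : Continuous fun t => (u t : ℂ) := Complex.continuous_ofReal.comp s.continuous
    have ce : Continuous fun t => (η t : ℂ) := Complex.continuous_ofReal.comp cη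
    have p := intervalIntegral.integral_eq_sub_of_hasDerivAt (a := 0) (b := b)
      (fun t _ => (d t).ofReal_comp.mul (dP t)) (((cu.mul cP).add (ce.mul cG)).intervalIntegrable _ _)
    simp only [Pi.mul_apply] at p
    rw [ze b fun m => cb.not_ge m.2, ze 0 fun m => a0.not_ge m.1, Complex.ofReal_zero, zero_mul,
      zero_mul, sub_zero, intervalIntegral.integral_of_le hb.le, ← integral_Icc_eq_integral_Ioc] at p
    rw [de, ← setIntegral_congr_fun measurableSet_Icc (f := fun t =>
      (u t : ℂ) * F (max 0 (min t b)) + (η t : ℂ) * G' t) fun t ht => by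
        simp only [G', Function.comp_apply, pe t ht]] at e
    have k := integral_sub (μ := volume.restrict (Icc 0 b))
      (f := fun t => (u t : ℂ) * F (max 0 (min t b)) + (η t : ℂ) * G' t)
      (g := fun t => (u t : ℂ) * P t + (η t : ℂ) * G' t)
      ((cu.mul cF).add (ce.mul cG)).integrableOn_Icc ((cu.mul cP).add (ce.mul cG)).integrableOn_Icc
    rw [e, p, sub_zero] at k
    rw [← setIntegral_eq_integral_of_forall_compl_eq_zero (s := Icc 0 b) fun t ht => by
      rw [z t fun m => ht ⟨a0.le.trans m.1, m.2.trans cb.le⟩, zero_smul]]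
    refine (integral_congr_ae (.of_forall fun t => ?_)).trans k
    simp only [Pi.sub_apply, Function.comp_apply, Complex.real_smul]
    ring
  intro t ht
  have := ((dP t).add_const κ).hasDerivWithinAt (s := Icc 0 b)
  rw [show G' t = G t from congrArg G (pe t ht)] at this
  have e : ∀ x ∈ Icc 0 b, F x = P x + κ := fun x hx => by
    rw [← hκ x hx]
    simp only [Pi.sub_apply, Function.comp_apply, pe x hx]
    ring
  exact this.congr e (e t ht)

end Vale.Agent.P139L23
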